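import Vale.Agent.P170.Defs

/-!
The other standard models of random `k`-SAT, and the expected number of clauses at which the
formula becomes unsatisfiable.
-/

namespace Vale.Agent.N170

open Filter Topology Vale.Agent.P170

/-- The set `T` of proper clauses is satisfiable. -/
def SatSet {k n : ℕ} (T : Finset (PClause k n)) : Prop :=
  ∃ a : Fin n → Bool, ∀ C ∈ T, ∃ l ∈ C.1, a l.1 = l.2

/-- `m` distinct clauses: the proportion of satisfiable sets among all sets of `m` proper
`k`-clauses on `n` variables. -/
noncomputable def distinctProb (k n m : ℕ) : ℝ :=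
  (Nat.card {T : Finset (PClause k n) // T.card = m ∧ SatSet T} : ℝ) /
    (Nat.card {T : Finset (PClause k n) // T.card = m} : ℝ)

open Classical in
/-- The binomial model: the probability of satisfiability when each proper `k`-clause on `n`
variables is present independently with probability `p`. -/
noncomputable def binomialProb (k n : ℕ) (p : ℝ) : ℝ :=
  ∑ T : Finset (PClause k n) with SatSet T, p ^ T.card * (1 - p) ^ Tᶜ.card

/-- Independent literals: the proportion of satisfiable formulas among all sequences of `m`
clauses, each a sequence of `k` literals (variables may repeat inside a clause). -/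
noncomputable def literalProb (k n m : ℕ) : ℝ :=
  (Nat.card {F : Fin m → Fin k → Fin n × Bool //
      ∃ a : Fin n → Bool, ∀ i, ∃ t, a (F i t).1 = (F i t).2} : ℝ) /
    (Nat.card (Fin m → Fin k → Fin n × Bool) : ℝ)

/-- `P n c` tends to `1` for `0 ≤ c < α` and to `0` for `c > α`. -/
def Threshold (P : ℕ → ℝ → ℝ) (α : ℝ) : Prop :=
  (∀ c : ℝ, 0 ≤ c → c < α → Tendsto (fun n : ℕ => P n c) atTop (𝓝 1)) ∧
  (∀ c : ℝ, α < c → Tendsto (fun n : ℕ => P n c) atTop (𝓝 0))

end Vale.Agent.N170
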