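import Vale.Agent.N170.Literal

/-!
The number of clauses at which the formula becomes unsatisfiable: mean and mean deviation.
-/

namespace Vale.Agent.N170

open Finset Filter Topology MeasureTheory Vale.Agent.P170

attribute [local irreducible] Phi Eta in
/-- the summed window bound in the rate model -/
theorem sum_window (j : ℕ) (hj : 2 ≤ j) (C : ℝ) (hC : 1 ≤ C) (n M : ℕ) (hn : 1 ≤ n)
    (hM : (M : ℝ) ≤ C * n) :
    ∑ i ∈ range M, U j n ((i : ℝ) / n) * (1 - U j n (((i + 1 : ℕ) : ℝ) / n))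
      ≤ 6 * ((j + 1) * C) ^ 2 * Real.sqrt n := by
  obtain ⟨m, rfl⟩ : ∃ m, n = m + 1 := ⟨n - 1, by omega⟩
  have h3 := Eta_bound hj hC m
  obtain ⟨N, hN⟩ : ∃ N : ℝ, N = ((m + 1 : ℕ) : ℝ) := ⟨_, rfl⟩
  have hrt : ∀ c : ℝ, rt j (m + 1) c = c * N / (2 * N) ^ (j + 1) := fun c => by rw [hN]; rfl
  rw [← hN] at h3 hM ⊢
  have hN0 : 0 < N := by rw [hN]; positivity
  obtain ⟨X, hX⟩ : ∃ X : ℝ, X = (2 * N) ^ (j + 1) := ⟨_, rfl⟩
  rw [← hX] at h3 hrt
  have hX0 : 0 < X := by rw [hX]; positivity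
  have hrt' : ∀ x : ℝ, rt j (m + 1) (x / N) = x / X := fun x => by rw [hrt]; field_simp
  have hU : ∀ r : ℝ, Phi j (Fin (m + 1)) r 0 = U j (m + 1) (r * X / N) := fun r => by
    unfold U
    rw [hrt', mul_div_cancel_right₀ _ hX0.ne']
  have cE : Continuous fun r => Eta j (Fin (m + 1)) (Fin.last m) false r 0 :=
    (continuous_Eta j (Fin (m + 1)) (Fin.last m) false).comp
      (by fun_prop : Continuous fun r : ℝ => (r, (0 : ℝ)))
  have hs : Real.sqrt (((m : ℝ) + 1) / 2) ≤ Real.sqrt N := by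
    apply Real.sqrt_le_sqrt
    rw [hN]
    push_cast
    linarith [(Nat.cast_nonneg m : (0 : ℝ) ≤ m)]
  have h1 : ∀ i ∈ range M, U j (m + 1) ((i : ℝ) / N) * (1 - U j (m + 1) (((i + 1 : ℕ) : ℝ) / N))
      ≤ X * Real.sqrt N * ∫ r in ((i : ℝ) / X)..(((i + 1 : ℕ) : ℝ) / X),
        Eta j (Fin (m + 1)) (Fin.last m) false r 0 := by
    intro i _
    have hle : (i : ℝ) / X ≤ ((i + 1 : ℕ) : ℝ) / X := by gcongr; omega
    have h2 := intervalIntegral.integral_mono_on (μ := volume) hle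
      (by simp : IntervalIntegrable (fun _ : ℝ => U j (m + 1) ((i : ℝ) / N)
        * (1 - U j (m + 1) (((i + 1 : ℕ) : ℝ) / N))) volume _ _)
      ((continuous_const.mul cE).intervalIntegrable _ _) (g := fun r => Real.sqrt N *
        Eta j (Fin (m + 1)) (Fin.last m) false r 0) (fun r hr => by
        have hr0 : 0 ≤ r := le_trans (by positivity) hr.1
        have h4 := exposure j m (by omega) hr0 (le_refl (0 : ℝ))
        refine le_trans ?_ (h4.trans (mul_le_mul_of_nonneg_right hs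
          (Eta_nonneg (Fin.last m) false hr0 le_rfl)))
        rw [hU]
        have h5 : (i : ℝ) ≤ r * X := (div_le_iff₀ hX0).1 hr.1
        have h6 : r * X ≤ ((i + 1 : ℕ) : ℝ) := (le_div_iff₀ hX0).1 hr.2
        have h7 : U j (m + 1) ((i : ℝ) / N) ≤ U j (m + 1) (r * X / N) :=
          U_mono _ _ (by positivity) (by gcongr)
        have h8 : U j (m + 1) (r * X / N) ≤ U j (m + 1) (((i + 1 : ℕ) : ℝ) / N) :=
          U_mono _ _ (by positivity) (by gcongr)
        exact mul_le_mul h7 (by linarith)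
          (by linarith [U_le_one j (m + 1) (c := ((i + 1 : ℕ) : ℝ) / N) (by positivity)])
          (U_nonneg _ _ (by positivity)))
    rw [intervalIntegral.integral_const, smul_eq_mul, intervalIntegral.integral_const_mul] at h2
    have h9 : ((i + 1 : ℕ) : ℝ) / X - (i : ℝ) / X = 1 / X := by push_cast; ring
    rw [h9, one_div, inv_mul_le_iff₀ hX0] at h2
    rw [mul_assoc]
    exact h2
  refine (sum_le_sum h1).trans ?_
  rw [← mul_sum, intervalIntegral.sum_integral_adjacent_intervals (a := fun i : ℕ => (i : ℝ) / X)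
    (fun i _ => cE.intervalIntegrable _ _)]
  have h2 : ∫ r in (((0 : ℕ) : ℝ) / X)..((M : ℝ) / X), Eta j (Fin (m + 1)) (Fin.last m) false r 0
      ≤ ∫ r in (0 : ℝ)..(rt j (m + 1) C), Eta j (Fin (m + 1)) (Fin.last m) false r 0 := by
    refine intervalIntegral.integral_mono_interval (by simp) (by gcongr; omega) ?_ ?_
      (cE.intervalIntegrable _ _)
    · rw [hrt]; gcongr
    · refine (ae_restrict_iff' measurableSet_Ioc).2 (Eventually.of_forall fun r hr => ?_)
      exact Eta_nonneg (Fin.last m) false hr.1.le le_rfl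
  calc _ ≤ X * Real.sqrt N * ∫ r in (0 : ℝ)..(rt j (m + 1) C),
        Eta j (Fin (m + 1)) (Fin.last m) false r 0 := by gcongr
    _ = Real.sqrt N * (X * ∫ r in (0 : ℝ)..(rt j (m + 1) C),
        Eta j (Fin (m + 1)) (Fin.last m) false r 0) := by ring
    _ ≤ Real.sqrt N * (6 * ((j + 1) * C) ^ 2) := by gcongr
    _ = _ := by ring

theorem sum_shift_le {g : ℕ → ℝ} (h0 : ∀ i, 0 ≤ g i) (h1 : ∀ i, g i ≤ 1) (M L : ℕ) :
    ∑ i ∈ range M, (g (i + L) - g i) ≤ L := by
  have e1 := sum_range_add g L M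
  have e2 := sum_range_add g M L
  rw [add_comm M L, e1] at e2
  have e3 : ∑ i ∈ range L, g (M + i) ≤ L := by
    simpa using sum_le_sum (s := range L) fun i _ => h1 (M + i)
  have e4 : 0 ≤ ∑ i ∈ range L, g i := sum_nonneg fun i _ => h0 i
  have e5 : ∑ i ∈ range M, g (L + i) = ∑ i ∈ range M, g (i + L) :=
    sum_congr rfl fun i _ => by rw [add_comm]
  rw [sum_sub_distrib]
  linarith

/-- geometric decay beyond `2 ^ (k + 1) n` clauses -/
theorem tail_geom (j n i : ℕ) (hn : j + 1 ≤ n) :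
    satProb (j + 1) n (i + 2 ^ (j + 2) * n) ≤ (1 - 1 / 2 ^ (j + 1)) ^ i := by
  have hp : (0 : ℝ) < 2 ^ (j + 1) := by positivity
  have h0 : (0 : ℝ) ≤ 1 - 1 / 2 ^ (j + 1) := by
    rw [sub_nonneg, div_le_one hp]
    exact one_le_pow₀ (by norm_num)
  refine (w_first_moment j n _ hn).trans ?_
  rw [pow_add, pow_mul, mul_left_comm, ← mul_pow]
  refine mul_le_of_le_one_right (by positivity) (pow_le_one₀ (by positivity) ?_)
  have h1 : (1 - 1 / 2 ^ (j + 1) : ℝ) ≤ Real.exp (-(1 / 2 ^ (j + 1))) := by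
    linarith [Real.add_one_le_exp (-(1 / 2 ^ (j + 1) : ℝ))]
  have h2 : (1 - 1 / 2 ^ (j + 1) : ℝ) ^ 2 ^ (j + 2) ≤ Real.exp (-2) := by
    refine (pow_le_pow_left₀ h0 h1 _).trans (le_of_eq ?_)
    rw [← Real.exp_nat_mul]
    congr 1
    push_cast
    field_simp
    ring
  have h3 : Real.exp (-2) ≤ 1 / 2 := by
    rw [Real.exp_neg, one_div]
    exact inv_anti₀ (by norm_num) (by linarith [Real.add_one_le_exp (2 : ℝ)])
  linarith

theorem hasSum_geom (j : ℕ) :
    HasSum (fun i : ℕ => (1 - 1 / 2 ^ (j + 1) : ℝ) ^ i) (2 ^ (j + 1)) := by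
  have hp : (0 : ℝ) < 2 ^ (j + 1) := by positivity
  have h0 : (0 : ℝ) ≤ 1 - 1 / 2 ^ (j + 1) := by
    rw [sub_nonneg, div_le_one hp]
    exact one_le_pow₀ (by norm_num)
  have h := hasSum_geometric_of_lt_one h0 (by linarith [one_div_pos.2 hp])
  rwa [sub_sub_cancel, one_div, inv_inv, ← one_div] at h

theorem summable_satProb (j n : ℕ) (hn : j + 1 ≤ n) : Summable (satProb (j + 1) n) :=
  (summable_nat_add_iff (2 ^ (j + 2) * n)).1 ((hasSum_geom j).summable.of_nonneg_of_le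
    (fun _ => satProb_nonneg _ _ _) fun i => tail_geom j n i hn)

theorem var_bounds (k n m : ℕ) : 0 ≤ satProb k n m * (1 - satProb k n m) ∧
    satProb k n m * (1 - satProb k n m) ≤ satProb k n m := by
  have h0 := satProb_nonneg k n m
  have h1 := satProb_le_one k n m
  constructor <;> nlinarith

theorem summable_var (j n : ℕ) (hn : j + 1 ≤ n) :
    Summable fun m => satProb (j + 1) n m * (1 - satProb (j + 1) n m) :=
  (summable_satProb j n hn).of_nonneg_of_le (fun m => (var_bounds _ _ m).1)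
    fun m => (var_bounds _ _ m).2

/-- the middle range, for large `n` -/
theorem mid_bound (j n : ℕ) (hj : 2 ≤ j) (hn : j + 1 ≤ n) {C s : ℝ} (hC : 1 ≤ C)
    (hs : s = 8 * (1 + C)) (hlarge : 2 * (C * ((j + 1) * j)) ≤ s * Real.sqrt n) (K M : ℕ)
    (hK : s * Real.sqrt n ≤ K) (hM : (M : ℝ) + 2 * K ≤ C * n) :
    ∑ i ∈ range M, satProb (j + 1) n (K + i) * (1 - satProb (j + 1) n (K + i))
      ≤ 4 * Real.exp (C * ((j + 1) * j)) * (6 * ((j + 1) * C) ^ 2 * Real.sqrt n + 1 + 2 * K) := by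
  have hn0 : (0 : ℝ) < n := by exact_mod_cast (by omega : 0 < n)
  have hK0 : (0 : ℝ) ≤ K := Nat.cast_nonneg K
  obtain ⟨g, hg⟩ : ∃ g : ℕ → ℝ, g = fun i : ℕ => U j n ((i : ℝ) / n) := ⟨_, rfl⟩
  have g0 : ∀ i, 0 ≤ g i := fun i => by rw [hg]; exact U_nonneg _ _ (by positivity)
  have g1 : ∀ i, g i ≤ 1 := fun i => by rw [hg]; exact U_le_one _ _ (by positivity)
  have gm : ∀ a b : ℕ, a ≤ b → g a ≤ g b := fun a b hab => by
    rw [hg]; exact U_mono _ _ (by positivity) (by gcongr)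
  have h1 := sum_window j hj C hC n M (by omega) (by linarith)
  have h1' : ∑ i ∈ range M, g i * (1 - g (i + 1)) ≤ 6 * ((j + 1) * C) ^ 2 * Real.sqrt n := by
    rw [hg]; exact h1
  have h2 := sum_shift_le g0 g1 M 1
  have h3 := sum_shift_le g0 g1 M (2 * K)
  obtain ⟨E, hE⟩ : ∃ E : ℝ, E = Real.exp (C * ((j + 1) * j)) := ⟨_, rfl⟩
  have hE0 : 0 < E := by rw [hE]; positivity
  have h4 : ∀ i ∈ range M, satProb (j + 1) n (K + i) * (1 - satProb (j + 1) n (K + i))
      ≤ 4 * E * (g i * (1 - g (i + 1)) + (g (i + 1) - g i) + (g (i + 2 * K) - g i)) := by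
    intro i hi
    have hi' : (i : ℝ) ≤ M := by exact_mod_cast (mem_range.1 hi).le
    have hi0 : (0 : ℝ) ≤ i := Nat.cast_nonneg i
    have a1 : (i : ℝ) / n ≤ (((K + i : ℕ) : ℝ) - s * Real.sqrt n) / n := by
      gcongr; push_cast; linarith
    have a2 := w_cmp_above j n (K + i) hn hC hs (by push_cast; linarith)
      (le_trans (by positivity) a1)
    have a3 := w_cmp_below j n (K + i) hn hC hs (by push_cast; linarith) hlarge
    have a4 : g i ≤ U j n ((((K + i : ℕ) : ℝ) - s * Real.sqrt n) / n) := by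
      rw [hg]; exact U_mono _ _ (by positivity) a1
    have hs0 : 0 < s := by rw [hs]; linarith
    have a5 : U j n ((((K + i : ℕ) : ℝ) + s * Real.sqrt n) / n) ≤ g (i + 2 * K) := by
      rw [hg]
      refine U_mono _ _ (by positivity) ?_
      gcongr
      push_cast
      linarith
    rw [← hE] at a2
    have a6 : satProb (j + 1) n (K + i) ≤ 2 * E * (1 - g i) :=
      a2.trans (by gcongr)
    have a7 : 1 - satProb (j + 1) n (K + i) ≤ 2 * g (i + 2 * K) := by linarith
    have a8 := mul_le_mul a6 a7 (by linarith [satProb_le_one (j + 1) n (K + i)])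
      (mul_nonneg (by positivity) (by linarith [g1 i]))
    refine a8.trans ?_
    have b1 := gm i (i + 1) (by omega)
    have b2 := gm i (i + 2 * K) (by omega)
    have b3 : (1 - g i) * g (i + 2 * K)
        ≤ g i * (1 - g (i + 1)) + (g (i + 1) - g i) + (g (i + 2 * K) - g i) := by
      nlinarith [g0 i, g1 i]
    nlinarith
  refine (sum_le_sum h4).trans ?_
  rw [← mul_sum, sum_add_distrib, sum_add_distrib, ← hE]
  push_cast at h2 h3
  gcongr

/-- the mean deviation is `O(√n)` -/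
theorem var_sum (j : ℕ) (hj : 2 ≤ j) : ∃ B : ℝ, 0 < B ∧ ∀ n : ℕ, j + 1 ≤ n →
    ∑' m, satProb (j + 1) n m * (1 - satProb (j + 1) n m) ≤ B * Real.sqrt n := by
  obtain ⟨C, hC⟩ : ∃ C : ℝ, C = 2 ^ (j + 2) + 2 := ⟨_, rfl⟩
  have hC1 : 1 ≤ C := by rw [hC]; linarith [(by positivity : (0 : ℝ) < 2 ^ (j + 2))]
  obtain ⟨s, hs⟩ : ∃ s : ℝ, s = 8 * (1 + C) := ⟨_, rfl⟩
  have hs1 : 1 ≤ s := by rw [hs]; linarith
  obtain ⟨q, hq⟩ : ∃ q : ℝ, q = C * ((j + 1) * j) := ⟨_, rfl⟩
  have hq0 : 0 ≤ q := by rw [hq]; positivity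
  obtain ⟨A, hA⟩ : ∃ A : ℝ, A = 6 * ((j + 1) * C) ^ 2 := ⟨_, rfl⟩
  have hA0 : 0 ≤ A := by rw [hA]; positivity
  obtain ⟨E, hE⟩ : ∃ E : ℝ, E = Real.exp q := ⟨_, rfl⟩
  have hE0 : 0 < E := by rw [hE]; positivity
  refine ⟨2 ^ (j + 1) + C * (s + 1 + 2 * q) + (s + 1) + 4 * E * (A + 1 + 2 * (s + 1)),
    by positivity, fun n hn => ?_⟩
  obtain ⟨hr, hrr, hn0, hr1⟩ := w_sqrt_facts n (by omega)
  have hsum := summable_var j n hn
  have hle1 : ∀ L : ℕ, ∑ m ∈ range L, satProb (j + 1) n m * (1 - satProb (j + 1) n m) ≤ L := by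
    intro L
    simpa using sum_le_sum (s := range L) fun m _ =>
      (var_bounds (j + 1) n m).2.trans (satProb_le_one _ _ _)
  have htail : ∀ L : ℕ, ∑' i, satProb (j + 1) n (i + (L + 2 ^ (j + 2) * n))
      * (1 - satProb (j + 1) n (i + (L + 2 ^ (j + 2) * n))) ≤ 2 ^ (j + 1) * Real.sqrt n := by
    intro L
    have h1 := hasSum_le (fun i => ((var_bounds _ _ _).2.trans (satProb_antitone (j + 1) n
      (by omega : i + 2 ^ (j + 2) * n ≤ i + (L + 2 ^ (j + 2) * n)))).trans (tail_geom j n i hn))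
      ((summable_nat_add_iff (L + 2 ^ (j + 2) * n)).2 hsum).hasSum (hasSum_geom j)
    exact h1.trans (le_mul_of_one_le_right (by positivity) hr1)
  have e1 : 0 ≤ C * (s + 1 + 2 * q) * Real.sqrt n := by positivity
  have e2 : 0 ≤ (s + 1) * Real.sqrt n := by positivity
  have e3 : 0 ≤ 4 * E * (A + 1 + 2 * (s + 1)) * Real.sqrt n := by positivity
  rcases lt_or_ge (Real.sqrt n) (s + 1 + 2 * q) with hsmall | hbig
  · rw [← hsum.sum_add_tsum_nat_add (0 + 2 ^ (j + 2) * n)]
    have h1 := hle1 (0 + 2 ^ (j + 2) * n)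
    have h2 : ((0 + 2 ^ (j + 2) * n : ℕ) : ℝ) ≤ C * (s + 1 + 2 * q) * Real.sqrt n := by
      push_cast
      calc (0 : ℝ) + 2 ^ (j + 2) * n ≤ C * n := by rw [hC]; nlinarith
        _ = C * Real.sqrt n * Real.sqrt n := by rw [mul_assoc, hrr]
        _ ≤ _ := by gcongr
    linarith [htail 0]
  · obtain ⟨K, hK⟩ : ∃ K : ℕ, K = ⌈s * Real.sqrt n⌉₊ := ⟨_, rfl⟩
    have hK1 : s * Real.sqrt n ≤ K := hK ▸ Nat.le_ceil _
    have hK2 : (K : ℝ) ≤ (s + 1) * Real.sqrt n := by
      have := Nat.ceil_lt_add_one (a := s * Real.sqrt n) (by positivity)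
      rw [← hK] at this
      linarith
    have hK3 : (K : ℝ) ≤ n := by nlinarith
    have h1 := mid_bound j n hj hn hC1 hs (by rw [← hq]; nlinarith) K (2 ^ (j + 2) * n) hK1
      (by rw [hC]; push_cast; linarith)
    rw [← hq, ← hE, ← hA] at h1
    have h2 : 4 * E * (A * Real.sqrt n + 1 + 2 * K)
        ≤ 4 * E * (A + 1 + 2 * (s + 1)) * Real.sqrt n := by
      rw [mul_assoc (4 * E)]
      gcongr
      linarith
    rw [← hsum.sum_add_tsum_nat_add (K + 2 ^ (j + 2) * n), sum_range_add]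
    linarith [htail K, hle1 K]

theorem threshold_unique {k : ℕ} {α β : ℝ} (h : IsLimitingThreshold k α)
    (h' : IsLimitingThreshold k β) : α = β := by
  have key : ∀ {α β : ℝ}, IsLimitingThreshold k α → IsLimitingThreshold k β → α ≤ β := by
    intro α β h h'
    by_contra hcon
    rw [not_le] at hcon
    have := tendsto_nhds_unique (h.2.1 ((α + β) / 2) (by linarith [h'.1]) (by linarith))
      (h'.2.2 _ (by linarith))
    norm_num at this
  exact le_antisymm (key h h') (key h' h)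

theorem hitting {k : ℕ} (hk : 3 ≤ k) {α : ℝ} (h : IsLimitingThreshold k α) :
    (∃ B : ℝ, ∀ n : ℕ, k ≤ n → Summable (satProb k n) ∧
      ∑' m, satProb k n m * (1 - satProb k n m) ≤ B * Real.sqrt n ∧
      ∑' m, satProb k n m ≤ α * n + B * Real.sqrt n) ∧
    Tendsto (fun n : ℕ => (∑' m, satProb k n m) / n) atTop (𝓝 α) := by
  obtain ⟨β, A, hA, hβ, -, hone⟩ := w_main k hk
  obtain rfl := threshold_unique h hβ
  obtain ⟨j, rfl⟩ : ∃ j, k = j + 1 := ⟨k - 1, by omega⟩
  obtain ⟨B, hB, hvar⟩ := var_sum j (by omega)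
  have hα := h.1
  have hup : ∀ n : ℕ, j + 1 ≤ n →
      ∑' m, satProb (j + 1) n m ≤ α * n + (2 * A + 1 + 2 * B) * Real.sqrt n := by
    intro n hn
    obtain ⟨hr, hrr, hn0, hr1⟩ := w_sqrt_facts n (by omega)
    obtain ⟨L, hL⟩ : ∃ L : ℕ, L = ⌈α * n + 2 * A * Real.sqrt n⌉₊ := ⟨_, rfl⟩
    have hL1 : α * n + 2 * A * Real.sqrt n ≤ L := hL ▸ Nat.le_ceil _
    have hL2 : (L : ℝ) < α * n + 2 * A * Real.sqrt n + 1 :=
      hL ▸ Nat.ceil_lt_add_one (by positivity)
    have hs := summable_satProb j n hn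
    have hv := summable_var j n hn
    have h1 : ∑ m ∈ range L, satProb (j + 1) n m ≤ L := by
      simpa using sum_le_sum (s := range L) fun m _ => satProb_le_one (j + 1) n m
    have h2 := hasSum_le (fun i => show satProb (j + 1) n (i + L)
        ≤ 2 * (satProb (j + 1) n (i + L) * (1 - satProb (j + 1) n (i + L))) by
      have a1 := hone n (i + L) hn
      have a0 := satProb_nonneg (j + 1) n (i + L)
      have a2 : 2 * A * Real.sqrt n ≤ ((i + L : ℕ) : ℝ) - α * n := by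
        push_cast
        linarith [(Nat.cast_nonneg i : (0 : ℝ) ≤ i)]
      have a3 := (mul_le_mul_of_nonneg_right a2 a0).trans a1
      have a4 : satProb (j + 1) n (i + L) ≤ 1 / 2 := by
        have : 0 < A * Real.sqrt n := by positivity
        nlinarith
      nlinarith) ((summable_nat_add_iff L).2 hs).hasSum
      (((summable_nat_add_iff L).2 hv).hasSum.mul_left 2)
    have h3 := hv.sum_add_tsum_nat_add L
    have h4 : 0 ≤ ∑ m ∈ range L, satProb (j + 1) n m * (1 - satProb (j + 1) n m) :=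
      sum_nonneg fun m _ => (var_bounds _ _ m).1
    rw [← hs.sum_add_tsum_nat_add L]
    linarith [hvar n hn]
  refine ⟨⟨2 * A + 1 + 2 * B, fun n hn => ⟨summable_satProb j n hn, (hvar n hn).trans ?_,
    hup n hn⟩⟩, tendsto_order.2 ⟨fun c hc => ?_, fun c hc => ?_⟩⟩
  · gcongr
    linarith
  · obtain ⟨d, hd⟩ : ∃ d : ℝ, d = (max c 0 + α) / 2 := ⟨_, rfl⟩
    have hm : max c 0 < α := max_lt hc hα
    have hd0 : 0 ≤ d := by rw [hd]; positivity
    have h1 := (h.2.1 d hd0 (by rw [hd]; linarith)).const_mul d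
    rw [mul_one] at h1
    filter_upwards [h1.eventually (lt_mem_nhds (show c < d by
      rw [hd]; linarith [le_max_left c 0])), eventually_ge_atTop (j + 1)] with n h1 hn
    have hn0 : (0 : ℝ) < n := by exact_mod_cast (by omega : 0 < n)
    refine h1.trans_le ?_
    rw [le_div_iff₀ hn0]
    refine le_trans ?_ ((summable_satProb j n hn).sum_le_tsum (range (⌊d * n⌋₊ + 1))
      fun m _ => satProb_nonneg _ _ _)
    have h2 := card_nsmul_le_sum (range (⌊d * n⌋₊ + 1)) (satProb (j + 1) n) _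
      fun m hm => satProb_antitone (j + 1) n (Nat.lt_succ_iff.1 (mem_range.1 hm))
    rw [card_range, nsmul_eq_mul] at h2
    refine le_trans ?_ h2
    rw [mul_right_comm]
    refine mul_le_mul_of_nonneg_right ?_ (satProb_nonneg _ _ _)
    push_cast
    exact (Nat.lt_floor_add_one _).le
  · have h1 : Tendsto (fun n : ℕ => α + (2 * A + 1 + 2 * B) / Real.sqrt n) atTop (𝓝 α) := by
      simpa using (tendsto_const_nhds (x := 2 * A + 1 + 2 * B)).div_atTop
        (Real.tendsto_sqrt_atTop.comp tendsto_natCast_atTop_atTop) |>.const_add α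
    filter_upwards [h1.eventually (gt_mem_nhds hc), eventually_ge_atTop (j + 1)] with n h1 hn
    obtain ⟨hr, hrr, hn0, hr1⟩ := w_sqrt_facts n (by omega)
    refine lt_of_le_of_lt ?_ h1
    rw [div_le_iff₀ hn0]
    refine (hup n hn).trans (le_of_eq ?_)
    rw [add_mul α]
    congr 1
    nth_rewrite 3 [← hrr]
    field_simp

end Vale.Agent.N170
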