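import Vale.Agent.N170.Models

/-!
The threshold in the model with independent literals.
-/

namespace Vale.Agent.N170

open Finset Filter Topology Vale.Agent.P170

theorem tendsto_mu (j : ℕ) {c : ℝ} (hc : 0 ≤ c) :
    Tendsto (fun n : ℕ => mu j n (rt j n c) / n) atTop (𝓝 c) := by
  have h1 : Tendsto (fun n : ℕ => c - c * ((j + 1) * j) / (n : ℝ)) atTop (𝓝 c) := by
    simpa using (tendsto_const_div (c * ((j + 1) * j))).const_sub c
  refine tendsto_of_tendsto_of_tendsto_of_le_of_le' h1 tendsto_const_nhds ?_ ?_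
  · filter_upwards [eventually_ge_atTop (j + 1)] with n hn
    have hn0 : (0 : ℝ) < n := by exact_mod_cast (by omega : 0 < n)
    rw [le_div_iff₀ hn0, sub_mul, div_mul_cancel₀ _ hn0.ne']
    exact le_mu j n hn hc
  · filter_upwards [eventually_ge_atTop 1] with n hn
    have hn0 : (0 : ℝ) < n := by exact_mod_cast hn
    rw [div_le_iff₀ hn0]
    exact mu_le j n hn hc

theorem isMix_Vp (j n : ℕ) {c : ℝ} (hc : 0 ≤ c) :
    IsMix (satProb (j + 1) n) (mu j n (rt j n c)) (Vp j n (rt j n c)) := by
  have := rt_nonneg j n hc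
  exact ⟨satProb_antitone _ _, satProb_nonneg _ _, satProb_le_one _ _, by unfold mu; positivity,
    hasSum_Vp j n _⟩

theorem U_high {j : ℕ} {α : ℝ} (h : IsLimitingThreshold (j + 1) α) {c : ℝ} (hc : α < c) :
    Tendsto (fun n => U j n c) atTop (𝓝 1) := by
  have hα := h.1
  have hc0 : 0 ≤ c := by linarith
  have h1 := mix_zero (Eventually.of_forall fun n => isMix_Vp j n hc0) (tendsto_mu j hc0)
    (c' := (c + α) / 2) (by linarith) (by linarith) (h.2.2 _ (by linarith))
  have h2 := h1.const_sub 1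
  rw [sub_zero] at h2
  refine tendsto_of_tendsto_of_tendsto_of_le_of_le h2 tendsto_const_nhds (fun n => ?_)
    (fun n => U_le_one j n hc0)
  have := one_sub_Phi_le_Vp j n (rt_nonneg j n hc0)
  unfold U
  linarith

theorem U_low {j : ℕ} (hj : 2 ≤ j) {α : ℝ} (h : IsLimitingThreshold (j + 1) α) {c : ℝ}
    (hc0 : 0 ≤ c) (hc : c < α) : Tendsto (fun n => U j n c) atTop (𝓝 0) := by
  have hα := h.1
  obtain ⟨A, -, H2⟩ := window_bound j hj (α + 1) (by linarith)
  obtain ⟨β, hβ0, hlow, hhigh⟩ := exists_threshold (U j) (α + 1) A (by linarith)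
    (fun n c hc => U_nonneg j n hc) (fun n c hc => U_le_one j n hc)
    (fun n a b ha hab => U_mono j n ha hab)
    (fun n₁ n₂ c h₁ h₂ hc => superadd j n₁ n₂ h₁ h₂ hc) H2
    (fun n c hc => le_one_sub_U j n hc) (U_high h (by linarith))
  refine hlow c hc0 (lt_of_lt_of_le hc ?_)
  by_contra hcon
  rw [not_le] at hcon
  have h1 := transfer_unsat j (c := (β + 2 * α) / 3) (c' := (2 * β + α) / 3) (by linarith)
    (by linarith) (hhigh _ (by linarith))
  have h2 := h.2.1 ((β + 2 * α) / 3) (by linarith) (by linarith)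
  have := tendsto_nhds_unique h1 h2
  norm_num at this

/-- satisfiability of a set of tuples of literals -/
def SatT {k n : ℕ} (S : Finset (Tup k (Fin n))) : Prop :=
  ∃ a : Fin n → Bool, ∀ e ∈ S, ∃ t, a (e t).1 = (e t).2

theorem one_sub_Phi_eq (j n : ℕ) (r : ℝ) :
    1 - Phi j (Fin n) r 0 = Ex (fun _ : Tup (j + 1) (Fin n) => r) (fun S => ind (SatT S)) := by
  classical
  rw [one_sub_Phi_bd161]
  have h := Ex_push (fun e : Tup (j + 1) (Fin n) => (some (Sum.inl e) : Option (Cl j (Fin n))))
    (fun _ => r) (fun S => ind (¬ Unsat S))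
  have h1 : (fun e : Cl j (Fin n) => ∑ _e' ∈ univ.filter (fun e' : Tup (j + 1) (Fin n) =>
      (some (Sum.inl e') : Option (Cl j (Fin n))) = some e), r) = rate j (Fin n) r 0 := by
    funext e
    rcases e with e | e
    · have : univ.filter (fun e' : Tup (j + 1) (Fin n) =>
          (some (Sum.inl e') : Option (Cl j (Fin n))) = some (Sum.inl e)) = {e} := by
        ext x; simp
      rw [this, sum_singleton]; rfl
    · have : univ.filter (fun e' : Tup (j + 1) (Fin n) =>
          (some (Sum.inl e') : Option (Cl j (Fin n))) = some (Sum.inr e)) = ∅ := by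
        ext x; simp
      rw [this, sum_empty]; rfl
  rw [← h1]
  refine Eq.trans (by convert h.symm) ?_
  congr 1
  funext S
  refine ind_congr ?_
  unfold Unsat UnsatOn SatT
  push Not
  constructor
  · rintro ⟨a, -, ha⟩
    refine ⟨a, fun e he => ?_⟩
    have := ha (Sum.inl e) (mem_push.2 ⟨e, he, rfl⟩)
    unfold Viol at this
    push Not at this
    exact this
  · rintro ⟨a, ha⟩
    refine ⟨a, trivial, fun e he => ?_⟩
    obtain ⟨e', he', h2⟩ := mem_push.1 he
    obtain rfl := Option.some.inj h2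
    unfold Viol
    push Not
    exact ha e' he'

theorem card_Tup (k n : ℕ) : Fintype.card (Tup k (Fin n)) = (2 * n) ^ k := by
  simp [mul_comm]

theorem sum_ind_literal (k n m : ℕ) (hn : 1 ≤ n) :
    ∑ y : Fin m → Tup k (Fin n), ind (SatT (univ.image y))
      = (Fintype.card (Tup k (Fin n)) : ℝ) ^ m * literalProb k n m := by
  classical
  have h1 : ∀ y : Fin m → Tup k (Fin n), SatT (univ.image y) ↔
      ∃ a : Fin n → Bool, ∀ i, ∃ t, a (y i t).1 = (y i t).2 := by
    intro y
    unfold SatT
    simp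
  have h2 : (0 : ℝ) < (Fintype.card (Tup k (Fin n)) : ℝ) ^ m := by
    rw [card_Tup]; positivity
  unfold literalProb
  rw [Nat.card_eq_fintype_card, Nat.card_eq_fintype_card, Fintype.card_subtype,
    Fintype.card_fun (α := Fin m), Fintype.card_fin, Nat.cast_pow, mul_div_cancel₀ _ h2.ne',
    ← sum_boole]
  refine sum_congr rfl fun y _ => ?_
  rw [ind_congr (h1 y)]
  unfold ind
  congr

theorem literal_succ_le (k n m : ℕ) (hn : 1 ≤ n) :
    literalProb k n (m + 1) ≤ literalProb k n m := by
  classical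
  have h2 : (0 : ℝ) < (Fintype.card (Tup k (Fin n)) : ℝ) ^ (m + 1) := by
    rw [card_Tup]; positivity
  refine le_of_mul_le_mul_left ?_ h2
  rw [← sum_ind_literal k n (m + 1) hn, pow_succ', mul_assoc, ← sum_ind_literal k n m hn,
    ← (Fin.consEquiv fun _ : Fin (m + 1) => Tup k (Fin n)).sum_comp, Fintype.sum_prod_type,
    ← nsmul_eq_mul, ← card_univ, ← sum_const]
  refine sum_le_sum fun e _ => sum_le_sum fun y _ => ind_mono ?_
  rintro ⟨a, ha⟩
  refine ⟨a, fun e' he' => ha e' ?_⟩
  obtain ⟨i, -, rfl⟩ := mem_image.1 he'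
  exact mem_image.2 ⟨i.succ, mem_univ _, by simp [Fin.consEquiv]⟩

theorem isMix_literal (j n : ℕ) (hn : 1 ≤ n) {c : ℝ} (hc : 0 ≤ c) :
    IsMix (literalProb (j + 1) n) (c * n) (1 - U j n c) := by
  classical
  refine ⟨antitone_nat_of_succ_le fun m => literal_succ_le _ n m hn,
    fun m => by unfold literalProb; positivity, fun m => ?_, by positivity, ?_⟩
  · unfold literalProb
    refine div_le_one_of_le₀ ?_ (by positivity)
    exact_mod_cast Finite.card_subtype_le _
  · unfold U
    rw [one_sub_Phi_eq]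
    have h := hasSum_Ex_const (rt j n c) (fun S : Finset (Tup (j + 1) (Fin n)) => ind (SatT S))
    have hn0 : (0 : ℝ) < n := by exact_mod_cast hn
    have h1 : rt j n c * Fintype.card (Tup (j + 1) (Fin n)) = c * n := by
      rw [card_Tup]
      unfold rt
      push_cast
      field_simp
    convert h using 2 with m
    have h2 := sum_ind_literal (j + 1) n m hn
    rw [show (∑ y : Fin m → Tup (j + 1) (Fin n), ind (SatT (univ.image y)))
      = (Fintype.card (Tup (j + 1) (Fin n)) : ℝ) ^ m * literalProb (j + 1) n m by convert h2,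
      ← h1]
    unfold poi
    rw [mul_pow]
    ring

theorem literal_threshold {k : ℕ} (hk : 3 ≤ k) {α : ℝ} (h : IsLimitingThreshold k α) :
    Threshold (fun n c => literalProb k n ⌊c * n⌋₊) α := by
  obtain ⟨j, rfl⟩ : ∃ j, k = j + 1 := ⟨k - 1, by omega⟩
  have hα := h.1
  have hM : ∀ c : ℝ, Tendsto (fun n : ℕ => c * n / n) atTop (𝓝 c) := fun c =>
    tendsto_const_nhds.congr' (by
      filter_upwards [eventually_ge_atTop 1] with n hn
      have hn0 : (0 : ℝ) < n := by exact_mod_cast hn
      field_simp)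
  have hmix : ∀ c : ℝ, 0 ≤ c → ∀ᶠ n : ℕ in atTop,
      IsMix (literalProb (j + 1) n) (c * n) (1 - U j n c) := fun c hc =>
    (eventually_ge_atTop 1).mono fun n hn => isMix_literal j n hn hc
  constructor
  · intro c hc hcα
    refine unmix_one (hmix ((c + α) / 2) (by linarith)) (hM _) hc (by linarith) ?_
    simpa using (U_low (by omega) h (c := (c + α) / 2) (by linarith) (by linarith)).const_sub 1
  · intro c hc
    refine unmix_zero (hmix ((c + α) / 2) (by linarith)) (hM _) (by linarith) ?_
    simpa using (U_high h (c := (c + α) / 2) (by linarith)).const_sub 1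

end Vale.Agent.N170
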