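import Vale.Agent.P170.H243.Main
import Vale.Agent.N170.Defs

/-!
Poisson mixtures of an antitone sequence: transfer of limits in both directions.
-/

namespace Vale.Agent.N170

open Finset Filter Topology Vale.Agent.P170

theorem tendsto_const_div (C : ℝ) : Tendsto (fun n : ℕ => C / (n : ℝ)) atTop (𝓝 0) :=
  tendsto_const_div_atTop_nhds_zero_nat C

/-- lower tail of the Poisson weights at a linear distance from the mean -/
theorem tail_low {μ : ℕ → ℝ} {c c' : ℝ} (hc' : 0 ≤ c') (h : c' < c)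
    (hμ : Tendsto (fun n : ℕ => μ n / n) atTop (𝓝 c)) :
    Tendsto (fun n : ℕ => ∑ m ∈ range ⌊c' * n⌋₊, poi (μ n) m) atTop (𝓝 0) := by
  obtain ⟨δ, hδ⟩ : ∃ δ : ℝ, δ = (c - c') / 2 := ⟨_, rfl⟩
  have hδ0 : 0 < δ := by rw [hδ]; linarith
  have h1 : ∀ᶠ n : ℕ in atTop, c - δ < μ n / n := hμ.eventually (lt_mem_nhds (by linarith))
  have h2 : ∀ᶠ n : ℕ in atTop, μ n / n < c + 1 := hμ.eventually (gt_mem_nhds (by linarith))
  have key : ∀ᶠ n : ℕ in atTop, 0 ≤ ∑ m ∈ range ⌊c' * n⌋₊, poi (μ n) m ∧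
      ∑ m ∈ range ⌊c' * n⌋₊, poi (μ n) m ≤ ((c + 1) / δ ^ 2) / n := by
    filter_upwards [h1, h2, eventually_ge_atTop 1] with n h1 h2 hn
    have hn0 : (0 : ℝ) < n := by exact_mod_cast hn
    rw [lt_div_iff₀ hn0] at h1
    rw [div_lt_iff₀ hn0] at h2
    have h3 : (⌊c' * n⌋₊ : ℝ) ≤ c' * n := Nat.floor_le (by positivity)
    have h4 : δ * n ≤ μ n - ⌊c' * n⌋₊ := by
      have : (c - δ) * n = c' * n + δ * n := by rw [hδ]; ring
      linarith
    have h5 : 0 < δ * n := by positivity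
    have h6 : (0 : ℝ) ≤ ⌊c' * n⌋₊ := Nat.cast_nonneg _
    have hμ0 : 0 ≤ μ n := by linarith
    refine ⟨sum_nonneg fun m _ => poi_nonneg hμ0 m, ?_⟩
    refine (w_poi_lower hμ0 _ (by linarith)).trans ?_
    calc μ n / (μ n - ⌊c' * n⌋₊) ^ 2 ≤ ((c + 1) * n) / (δ * n) ^ 2 := by
          gcongr
          linarith
      _ = ((c + 1) / δ ^ 2) / n := by field_simp
  exact tendsto_of_tendsto_of_tendsto_of_le_of_le' tendsto_const_nhds (tendsto_const_div _)
    (key.mono fun n h => h.1) (key.mono fun n h => h.2)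

/-- upper tail of the Poisson weights at a linear distance from the mean -/
theorem tail_high {μ : ℕ → ℝ} {c c' : ℝ} (h : c < c') (h0 : ∀ᶠ n : ℕ in atTop, 0 ≤ μ n)
    (hμ : Tendsto (fun n : ℕ => μ n / n) atTop (𝓝 c)) :
    Tendsto (fun n : ℕ => ∑ m ∈ range (⌊c' * n⌋₊ + 1), poi (μ n) m) atTop (𝓝 1) := by
  obtain ⟨δ, hδ⟩ : ∃ δ : ℝ, δ = (c' - c) / 3 := ⟨_, rfl⟩
  have hδ0 : 0 < δ := by rw [hδ]; linarith
  have h1 : ∀ᶠ n : ℕ in atTop, μ n / n < c + δ := hμ.eventually (gt_mem_nhds (by linarith))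
  have h2 : ∀ᶠ n : ℕ in atTop, 1 / (n : ℝ) < δ :=
    (tendsto_const_div 1).eventually (gt_mem_nhds hδ0)
  have key : ∀ᶠ n : ℕ in atTop, 1 - ((c + δ) / δ ^ 2) / n
        ≤ ∑ m ∈ range (⌊c' * n⌋₊ + 1), poi (μ n) m ∧
      ∑ m ∈ range (⌊c' * n⌋₊ + 1), poi (μ n) m ≤ 1 := by
    filter_upwards [h0, h1, h2, eventually_ge_atTop 1] with n hμ0 h1 h2 hn
    have hn0 : (0 : ℝ) < n := by exact_mod_cast hn
    rw [div_lt_iff₀ hn0] at h1 h2
    have h3 : c' * n - 1 ≤ (⌊c' * n⌋₊ : ℝ) := (Nat.sub_one_lt_floor _).le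
    have h4 : δ * n ≤ ⌊c' * n⌋₊ - μ n := by
      have : c' * n = (c + δ) * n + 2 * (δ * n) := by rw [hδ]; ring
      linarith
    have h5 : 0 < δ * n := by positivity
    refine ⟨?_, sum_le_hasSum _ (fun i _ => poi_nonneg hμ0 i) (hasSum_poi _)⟩
    refine le_trans ?_ (w_poi_upper hμ0 _ (by linarith))
    have h6 : μ n / (⌊c' * n⌋₊ - μ n) ^ 2 ≤ ((c + δ) / δ ^ 2) / n := by
      calc μ n / (⌊c' * n⌋₊ - μ n) ^ 2 ≤ ((c + δ) * n) / (δ * n) ^ 2 := by
            gcongr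
            linarith
        _ = ((c + δ) / δ ^ 2) / n := by field_simp
    linarith
  have h3 : Tendsto (fun n : ℕ => 1 - ((c + δ) / δ ^ 2) / (n : ℝ)) atTop (𝓝 1) := by
    simpa using (tendsto_const_div ((c + δ) / δ ^ 2)).const_sub 1
  exact tendsto_of_tendsto_of_tendsto_of_le_of_le' h3 tendsto_const_nhds
    (key.mono fun n h => h.1) (key.mono fun n h => h.2)

/-- an antitone sequence of probabilities with its Poisson mixture -/
structure IsMix (p : ℕ → ℝ) (μ V : ℝ) : Prop where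
  anti : Antitone p
  nonneg : ∀ m, 0 ≤ p m
  le_one : ∀ m, p m ≤ 1
  mean : 0 ≤ μ
  sum : HasSum (fun m => poi μ m * p m) V

variable {p : ℕ → ℝ} {μ V : ℝ}

theorem IsMix.V_nonneg (h : IsMix p μ V) : 0 ≤ V :=
  h.sum.nonneg fun m => mul_nonneg (poi_nonneg h.mean m) (h.nonneg m)

theorem IsMix.V_le_one (h : IsMix p μ V) : V ≤ 1 :=
  hasSum_le (fun m => by
    have := poi_nonneg h.mean m
    have := h.le_one m
    nlinarith) h.sum (hasSum_poi μ)

theorem IsMix.lower (h : IsMix p μ V) (m₀ : ℕ) :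
    (∑ m ∈ range (m₀ + 1), poi μ m) * p m₀ ≤ V := by
  refine le_trans ?_ (sum_le_hasSum (range (m₀ + 1))
    (fun m _ => mul_nonneg (poi_nonneg h.mean m) (h.nonneg m)) h.sum)
  rw [sum_mul]
  exact sum_le_sum fun m hm => mul_le_mul_of_nonneg_left
    (h.anti (Nat.lt_succ_iff.mp (mem_range.mp hm))) (poi_nonneg h.mean m)

theorem IsMix.upper (h : IsMix p μ V) (m₀ : ℕ) :
    V ≤ ∑ m ∈ range m₀, poi μ m + p m₀ := by
  have h1 : HasSum (fun m => if m < m₀ then poi μ m else 0) (∑ m ∈ range m₀, poi μ m) := by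
    have h6 : HasSum (fun m => if m < m₀ then poi μ m else 0)
        (∑ m ∈ range m₀, if m < m₀ then poi μ m else 0) :=
      hasSum_sum_of_ne_finset_zero (fun m hm => if_neg (fun h => hm (mem_range.mpr h)))
    rwa [sum_congr rfl (fun m hm => if_pos (mem_range.mp hm))] at h6
  have h2 := h1.add ((hasSum_poi μ).mul_right (p m₀))
  rw [one_mul] at h2
  refine hasSum_le (fun m => ?_) h.sum h2
  have hp := poi_nonneg h.mean m
  have h0 := h.nonneg m₀
  split_ifs with hm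
  · have := h.le_one m
    nlinarith
  · have := h.anti (not_lt.mp hm)
    nlinarith

variable {P : ℕ → ℕ → ℝ} {M W : ℕ → ℝ} {c c' : ℝ}

/-- from fixed `m` to the mixture, limit `1` -/
theorem mix_one (h : ∀ᶠ n in atTop, IsMix (P n) (M n) (W n))
    (hM : Tendsto (fun n : ℕ => M n / n) atTop (𝓝 c)) (hc : c < c')
    (hP : Tendsto (fun n : ℕ => P n ⌊c' * n⌋₊) atTop (𝓝 1)) : Tendsto W atTop (𝓝 1) := by
  have h1 := (tail_high hc (h.mono fun n h => h.mean) hM).mul hP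
  rw [one_mul] at h1
  exact tendsto_of_tendsto_of_tendsto_of_le_of_le' h1 tendsto_const_nhds
    (h.mono fun n h => h.lower _) (h.mono fun n h => h.V_le_one)

/-- from fixed `m` to the mixture, limit `0` -/
theorem mix_zero (h : ∀ᶠ n in atTop, IsMix (P n) (M n) (W n))
    (hM : Tendsto (fun n : ℕ => M n / n) atTop (𝓝 c)) (hc' : 0 ≤ c') (hc : c' < c)
    (hP : Tendsto (fun n : ℕ => P n ⌊c' * n⌋₊) atTop (𝓝 0)) : Tendsto W atTop (𝓝 0) := by
  have h1 := (tail_low hc' hc hM).add hP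
  rw [add_zero] at h1
  exact tendsto_of_tendsto_of_tendsto_of_le_of_le' tendsto_const_nhds h1
    (h.mono fun n h => h.V_nonneg) (h.mono fun n h => h.upper _)

/-- from the mixture to fixed `m`, limit `1` -/
theorem unmix_one (h : ∀ᶠ n in atTop, IsMix (P n) (M n) (W n))
    (hM : Tendsto (fun n : ℕ => M n / n) atTop (𝓝 c)) (hc' : 0 ≤ c') (hc : c' < c)
    (hW : Tendsto W atTop (𝓝 1)) : Tendsto (fun n : ℕ => P n ⌊c' * n⌋₊) atTop (𝓝 1) := by
  have h1 := hW.sub (tail_low hc' hc hM)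
  rw [sub_zero] at h1
  exact tendsto_of_tendsto_of_tendsto_of_le_of_le' h1 tendsto_const_nhds
    (h.mono fun n h => by linarith [h.upper ⌊c' * n⌋₊]) (h.mono fun n h => h.le_one _)

/-- from the mixture to fixed `m`, limit `0` -/
theorem unmix_zero (h : ∀ᶠ n in atTop, IsMix (P n) (M n) (W n))
    (hM : Tendsto (fun n : ℕ => M n / n) atTop (𝓝 c)) (hc : c < c')
    (hW : Tendsto W atTop (𝓝 0)) : Tendsto (fun n : ℕ => P n ⌊c' * n⌋₊) atTop (𝓝 0) := by
  have h1 := tail_high hc (h.mono fun n h => h.mean) hM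
  have h2 := hW.add (h1.const_sub 1)
  rw [sub_self, add_zero] at h2
  refine tendsto_of_tendsto_of_tendsto_of_le_of_le' tendsto_const_nhds h2
    (h.mono fun n h => h.nonneg _) (h.mono fun n h => ?_)
  have h3 := h.lower ⌊c' * n⌋₊
  have h4 := h.le_one ⌊c' * n⌋₊
  have h5 : ∑ m ∈ range (⌊c' * n⌋₊ + 1), poi (M n) m ≤ 1 :=
    sum_le_hasSum _ (fun i _ => poi_nonneg h.mean i) (hasSum_poi _)
  nlinarith

end Vale.Agent.N170
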