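import Vale.Agent.N170.Mix
import Mathlib.Analysis.SpecialFunctions.Choose

/-!
The threshold in the binomial model and in the model with distinct clauses.
-/

namespace Vale.Agent.N170

open Finset Filter Topology Vale.Agent.P170

/-- the number of proper clauses grows faster than `n ^ 2` -/
theorem tendsto_sq_div {k : ℕ} (hk : 3 ≤ k) :
    Tendsto (fun n : ℕ => (n : ℝ) ^ 2 / (2 ^ k * n.choose k)) atTop (𝓝 0) := by
  have h1 := (isEquivalent_choose k).symm
  have h2 : Tendsto (fun n : ℕ => ((n : ℝ) ^ k / k.factorial) / (n.choose k : ℝ)) atTop (𝓝 1) := by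
    refine (Asymptotics.isEquivalent_iff_tendsto_one ?_).1 h1
    filter_upwards [eventually_ge_atTop k] with n hn
    exact_mod_cast (Nat.choose_pos hn).ne'
  have h3 := h2.mul (tendsto_const_div (k.factorial : ℝ))
  rw [mul_zero] at h3
  refine tendsto_of_tendsto_of_tendsto_of_le_of_le' tendsto_const_nhds h3
    (Eventually.of_forall fun n => by positivity) ?_
  filter_upwards [eventually_ge_atTop k] with n hn
  have hn1 : (1 : ℝ) ≤ n := by exact_mod_cast (by omega : 1 ≤ n)
  have hc : (0 : ℝ) < n.choose k := by exact_mod_cast Nat.choose_pos hn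
  have hf : (0 : ℝ) < k.factorial := by exact_mod_cast Nat.factorial_pos k
  have h4 : (n : ℝ) ^ 2 * n ≤ (n : ℝ) ^ k := by
    rw [← pow_succ]
    exact pow_le_pow_right₀ hn1 hk
  have h5 : (1 : ℝ) ≤ 2 ^ k := one_le_pow₀ (by norm_num)
  calc (n : ℝ) ^ 2 / (2 ^ k * n.choose k) ≤ (n : ℝ) ^ 2 / (1 * n.choose k) := by gcongr
    _ = ((n : ℝ) ^ 2 * n) / (n.choose k * n) := by field_simp
    _ ≤ (n : ℝ) ^ k / (n.choose k * n) := by gcongr
    _ = _ := by field_simp

theorem card_cast (k n : ℕ) : (Fintype.card (PClause k n) : ℝ) = 2 ^ k * n.choose k := by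
  rw [card_pclause]; push_cast; ring

/-! ### The binomial model -/

theorem binomial_eq (k n : ℕ) {p : ℝ} (hp : p < 1) :
    binomialProb k n p = Ex (fun _ : PClause k n => -Real.log (1 - p)) (fun T => ind (SatP T)) := by
  classical
  unfold binomialProb Ex
  rw [sum_filter]
  refine sum_congr rfl fun T _ => ?_
  have h1 : wt (fun _ : PClause k n => -Real.log (1 - p)) T = p ^ T.card * (1 - p) ^ Tᶜ.card := by
    unfold wt
    beta_reduce
    rw [neg_neg, Real.exp_log (by linarith), sub_sub_cancel, ← prod_mul_prod_compl T,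
      ← prod_const, ← prod_const]
    congr 1
    · exact prod_congr rfl fun e he => if_pos he
    · exact prod_congr rfl fun e he => if_neg (mem_compl.1 he)
  rw [h1]
  beta_reduce
  by_cases h : SatSet T
  · rw [if_pos h, ind_true (show SatP T from h), mul_one]
  · rw [if_neg h, ind_false (show ¬ SatP T from h), mul_zero]

theorem isMix_const (k n : ℕ) {r : ℝ} (hr : 0 ≤ r) :
    IsMix (satProb k n) (r * Fintype.card (PClause k n))
      (Ex (fun _ : PClause k n => r) (fun T => ind (SatP T))) := by
  classical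
  refine ⟨satProb_antitone k n, satProb_nonneg k n, satProb_le_one k n, by positivity, ?_⟩
  have h := hasSum_Ex_const r (fun T : Finset (PClause k n) => ind (SatP T))
  convert h using 2 with m
  have h2 := sum_ind_Satisfiable k n m
  rw [show (∑ y : Fin m → PClause k n, ind (SatP (Finset.univ.image y)))
    = (Fintype.card (PClause k n) : ℝ) ^ m * satProb k n m by convert h2]
  unfold poi
  rw [mul_pow]
  ring

/-- the mean number of clauses of the Poisson model attached to `p = c n / N` -/
theorem tendsto_mean {k : ℕ} (hk : 3 ≤ k) {c : ℝ} (hc : 0 ≤ c) :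
    (∀ᶠ n : ℕ in atTop, 0 ≤ c * n / (2 ^ k * n.choose k) ∧ c * n / (2 ^ k * n.choose k) < 1) ∧
    Tendsto (fun n : ℕ => -Real.log (1 - c * n / (2 ^ k * n.choose k))
      * Fintype.card (PClause k n) / n) atTop (𝓝 c) := by
  have h0 : Tendsto (fun n : ℕ => c * n / (2 ^ k * n.choose k : ℝ)) atTop (𝓝 0) := by
    have h1 := (tendsto_sq_div hk).const_mul c
    rw [mul_zero] at h1
    refine tendsto_of_tendsto_of_tendsto_of_le_of_le' tendsto_const_nhds h1
      (Eventually.of_forall fun n => by positivity) ?_
    filter_upwards [eventually_ge_atTop 1] with n hn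
    have hn1 : (1 : ℝ) ≤ n := by exact_mod_cast hn
    rw [← mul_div_assoc]
    gcongr
    nlinarith
  have h1 : ∀ᶠ n : ℕ in atTop, c * n / (2 ^ k * n.choose k : ℝ) < 1 :=
    h0.eventually (gt_mem_nhds one_pos)
  refine ⟨h1.mono fun n h => ⟨by positivity, h⟩, ?_⟩
  have h2 : Tendsto (fun n : ℕ => c / (1 - c * n / (2 ^ k * n.choose k : ℝ))) atTop (𝓝 c) := by
    have := (tendsto_const_nhds (x := c)).div (h0.const_sub 1) (by norm_num)
    rw [sub_zero, div_one] at this
    exact this
  have key : ∀ᶠ n : ℕ in atTop, c ≤ -Real.log (1 - c * n / (2 ^ k * n.choose k))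
      * Fintype.card (PClause k n) / n ∧ -Real.log (1 - c * n / (2 ^ k * n.choose k))
      * Fintype.card (PClause k n) / n ≤ c / (1 - c * n / (2 ^ k * n.choose k : ℝ)) := by
    filter_upwards [h1, eventually_ge_atTop k] with n h1 hn
    have hn0 : (0 : ℝ) < n := by exact_mod_cast (by omega : 0 < n)
    have hcc : (0 : ℝ) < n.choose k := by exact_mod_cast Nat.choose_pos hn
    rw [card_cast]
    obtain ⟨N, hN⟩ : ∃ N : ℝ, N = 2 ^ k * n.choose k := ⟨_, rfl⟩
    rw [← hN] at h1 ⊢
    have hN0 : 0 < N := by rw [hN]; positivity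
    obtain ⟨p, hp⟩ : ∃ p : ℝ, p = c * n / N := ⟨_, rfl⟩
    rw [← hp] at h1 ⊢
    have hpN : p * N = c * n := by rw [hp]; field_simp
    have hq : 0 < 1 - p := by linarith
    have h3 : p ≤ -Real.log (1 - p) := by linarith [Real.log_le_sub_one_of_pos hq]
    have h4 : -Real.log (1 - p) ≤ p / (1 - p) := by
      have h5 := Real.one_sub_inv_le_log_of_pos hq
      have h6 : p / (1 - p) = (1 - p)⁻¹ - 1 := by field_simp; ring
      linarith
    constructor
    · rw [le_div_iff₀ hn0]
      nlinarith
    · rw [div_le_iff₀ hn0]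
      calc -Real.log (1 - p) * N ≤ p / (1 - p) * N := by gcongr
        _ = (p * N) / (1 - p) := by ring
        _ = c / (1 - p) * n := by rw [hpN]; ring
  exact tendsto_of_tendsto_of_tendsto_of_le_of_le' tendsto_const_nhds h2
    (key.mono fun n h => h.1) (key.mono fun n h => h.2)

theorem binomial_threshold {k : ℕ} (hk : 3 ≤ k) {α : ℝ} (h : IsLimitingThreshold k α) :
    Threshold (fun n c => binomialProb k n (c * n / (2 ^ k * n.choose k))) α := by
  have hmix : ∀ c : ℝ, 0 ≤ c → ∀ᶠ n : ℕ in atTop, IsMix (satProb k n)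
      (-Real.log (1 - c * n / (2 ^ k * n.choose k)) * Fintype.card (PClause k n))
      (binomialProb k n (c * n / (2 ^ k * n.choose k))) := by
    intro c hc
    filter_upwards [(tendsto_mean hk hc).1] with n hn
    rw [binomial_eq k n hn.2]
    refine isMix_const k n ?_
    have := Real.log_nonpos (x := 1 - c * n / (2 ^ k * n.choose k)) (by linarith [hn.2])
      (by linarith [hn.1])
    linarith
  constructor
  · intro c hc hcα
    exact mix_one (hmix c hc) (tendsto_mean hk hc).2 (c' := (c + α) / 2) (by linarith)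
      (h.2.1 _ (by linarith) (by linarith))
  · intro c hc
    have hα := h.1
    exact mix_zero (hmix c (by linarith)) (tendsto_mean hk (by linarith)).2 (c' := (c + α) / 2)
      (by linarith) (by linarith) (h.2.2 _ (by linarith))

/-! ### Distinct clauses -/

section Distinct
variable {E : Type} [Fintype E] [DecidableEq E]

open Classical in
/-- injective sequences whose image has the property `Q` -/
theorem card_inj (Q : Finset E → Prop) (m : ℕ) :
    (univ.filter fun y : Fin m → E => Function.Injective y ∧ Q (univ.image y)).card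
      = m.factorial * (univ.filter fun T : Finset E => T.card = m ∧ Q T).card := by
  rw [card_eq_sum_card_fiberwise (f := fun y : Fin m → E => univ.image y)
    (t := univ.filter fun T : Finset E => T.card = m ∧ Q T)]
  · rw [mul_comm, ← smul_eq_mul, ← sum_const]
    refine sum_congr rfl fun T hT => ?_
    rw [mem_filter] at hT
    rw [← card_image_eq m T hT.2.1]
    congr 1
    ext y
    simp only [mem_filter, mem_univ, true_and]
    refine ⟨fun h => h.2, fun h => ⟨⟨?_, h ▸ hT.2.2⟩, h⟩⟩
    have h3 : (univ.image y).card = (univ : Finset (Fin m)).card := by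
      rw [h, hT.2.1, card_univ, Fintype.card_fin]
    exact fun a b hab => card_image_iff.mp h3 (mem_coe.mpr (mem_univ a))
      (mem_coe.mpr (mem_univ b)) hab
  · intro y hy
    rw [mem_coe, mem_filter] at hy
    rw [mem_coe, mem_filter]
    exact ⟨mem_univ _, by rw [card_image_of_injective _ hy.2.1, card_univ, Fintype.card_fin],
      hy.2.2⟩

theorem desc_ge (N m : ℕ) (hN : m ≤ N) (hN0 : 0 < N) :
    (N : ℝ) ^ m * (1 - (m : ℝ) ^ 2 / N) ≤ N.descFactorial m := by
  rcases m with _ | j
  · simp
  · refine le_trans ?_ (le_descFactorial j N hN)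
    have h0 : (0 : ℝ) < N := by exact_mod_cast hN0
    have h1 : ((j : ℝ) + 1) * j / N ≤ ((j + 1 : ℕ) : ℝ) ^ 2 / N := by
      gcongr
      push_cast
      nlinarith [(Nat.cast_nonneg j : (0 : ℝ) ≤ j)]
    gcongr

theorem close_num {A B S F Z ε : ℝ} (hA : 0 ≤ A) (hAB : A ≤ B) (hB : 0 < B) (hZ : 0 < Z)
    (h3 : F * A ≤ S) (h4 : S + F * B ≤ F * A + Z) (h5 : Z * (1 - ε) ≤ F * B) (h6 : F * B ≤ Z) :
    |A / B - S / Z| ≤ ε := by
  obtain ⟨x, hx⟩ : ∃ x : ℝ, x = A / B := ⟨_, rfl⟩
  have hx0 : 0 ≤ x := by rw [hx]; positivity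
  have hx1 : x ≤ 1 := by rw [hx, div_le_one hB]; exact hAB
  have hAx : A = x * B := by rw [hx]; field_simp
  obtain ⟨y, hy⟩ : ∃ y : ℝ, y = S / Z := ⟨_, rfl⟩
  have hSy : S = y * Z := by rw [hy]; field_simp
  rw [← hx, ← hy]
  obtain ⟨D, hD⟩ : ∃ D : ℝ, D = F * B := ⟨_, rfl⟩
  have e1 : F * A = x * D := by rw [hD, hAx]; ring
  rw [e1, hSy] at h3 h4
  rw [← hD] at h4 h5 h6
  have h7 : x * D ≤ x * Z := mul_le_mul_of_nonneg_left h6 hx0
  have h8 : (1 - x) * D ≤ (1 - x) * Z := mul_le_mul_of_nonneg_left h6 (by linarith)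
  rw [abs_le]
  constructor
  · have : (y - x - ε) * Z ≤ 0 := by nlinarith
    nlinarith
  · have : (x - y - ε) * Z ≤ 0 := by nlinarith
    nlinarith

/-- sets of `m` elements against sequences of `m` elements -/
theorem inj_close (Q : Finset E → Prop) (m : ℕ) (hm : m ≤ Fintype.card E)
    (h0 : 0 < Fintype.card E) :
    |(Nat.card {T : Finset E // T.card = m ∧ Q T} : ℝ) / Nat.card {T : Finset E // T.card = m}
      - (Nat.card {y : Fin m → E // Q (univ.image y)} : ℝ) / (Fintype.card E : ℝ) ^ m|
      ≤ (m : ℝ) ^ 2 / Fintype.card E := by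
  classical
  have h1 := card_inj Q m
  have h2 := card_inj (fun _ : Finset E => True) m
  simp only [and_true] at h2
  simp only [Nat.card_eq_fintype_card, Fintype.card_subtype]
  have hB : (univ.filter fun T : Finset E => T.card = m).card = (Fintype.card E).choose m := by
    rw [← card_univ, ← card_powersetCard]
    congr 1
    ext T
    simp
  have hD : m.factorial * (univ.filter fun T : Finset E => T.card = m).card
      = (Fintype.card E).descFactorial m := by
    rw [hB, Nat.descFactorial_eq_factorial_mul_choose]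
  have h3 : m.factorial * (univ.filter fun T : Finset E => T.card = m ∧ Q T).card
      ≤ (univ.filter fun y : Fin m → E => Q (univ.image y)).card := by
    refine le_trans (le_of_eq (by convert h1.symm)) (card_le_card fun y hy => ?_)
    rw [mem_filter] at hy ⊢
    exact ⟨hy.1, hy.2.2⟩
  have h4 : (univ.filter fun y : Fin m → E => Q (univ.image y)).card
        + (univ.filter fun y : Fin m → E => Function.Injective y).card
      ≤ (univ.filter fun y : Fin m → E => Function.Injective y ∧ Q (univ.image y)).card
        + Fintype.card E ^ m := by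
    rw [← card_union_add_card_inter, add_comm]
    refine add_le_add (card_le_card fun y hy => ?_) ?_
    · simp only [mem_inter, mem_filter, mem_univ, true_and] at hy ⊢
      exact ⟨hy.2, hy.1⟩
    · refine (card_le_univ _).trans (le_of_eq ?_)
      rw [Fintype.card_fun, Fintype.card_fin]
  have h4' : (univ.filter fun y : Fin m → E => Q (univ.image y)).card
        + m.factorial * (univ.filter fun T : Finset E => T.card = m).card
      ≤ m.factorial * (univ.filter fun T : Finset E => T.card = m ∧ Q T).card
        + Fintype.card E ^ m := by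
    convert h4 using 2
    · convert h2.symm
    · convert h1.symm
  have hAB : (univ.filter fun T : Finset E => T.card = m ∧ Q T).card
      ≤ (univ.filter fun T : Finset E => T.card = m).card := card_le_card fun T hT => by
    rw [mem_filter] at hT ⊢
    exact ⟨hT.1, hT.2.1⟩
  have h5 := desc_ge _ m hm h0
  have h6 := Nat.descFactorial_le_pow (Fintype.card E) m
  rw [← hD] at h5 h6
  refine close_num (F := m.factorial) (Nat.cast_nonneg _) (by exact_mod_cast hAB)
    (by rw [hB]; exact_mod_cast Nat.choose_pos hm) (by positivity) (by exact_mod_cast h3)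
    (by exact_mod_cast h4') (by exact_mod_cast h5) (by exact_mod_cast h6)

end Distinct

/-- the two models with `m` clauses differ by at most `m ^ 2 / N` -/
theorem distinct_close (k n m : ℕ) (hn : k ≤ n) (hm : m ≤ Fintype.card (PClause k n)) :
    |distinctProb k n m - satProb k n m| ≤ (m : ℝ) ^ 2 / (2 ^ k * n.choose k) := by
  classical
  rw [← card_cast]
  have hN0 : 0 < Fintype.card (PClause k n) := by
    rw [card_pclause]
    exact Nat.mul_pos (Nat.choose_pos hn) (by positivity)
  have h := inj_close (fun T : Finset (PClause k n) => SatSet T) m hm hN0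
  have hs : satProb k n m = (Nat.card {y : Fin m → PClause k n // SatSet (univ.image y)} : ℝ)
      / (Fintype.card (PClause k n) : ℝ) ^ m := by
    unfold satProb
    rw [← Nat.card_eq_fintype_card, Fintype.card_fun, Fintype.card_fin, Nat.cast_pow,
      Nat.card_congr (Equiv.subtypeEquivRight (q := fun y => SatSet (univ.image y))
        fun y => (SatP_image y).symm)]
  rw [hs]
  exact h

theorem distinct_threshold {k : ℕ} (hk : 3 ≤ k) {α : ℝ} (h : IsLimitingThreshold k α) :
    Threshold (fun n c => distinctProb k n ⌊c * n⌋₊) α := by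
  have key : ∀ c : ℝ, 0 ≤ c →
      Tendsto (fun n : ℕ => distinctProb k n ⌊c * n⌋₊ - satProb k n ⌊c * n⌋₊) atTop (𝓝 0) := by
    intro c hc
    have h1 := (tendsto_sq_div hk).const_mul (c ^ 2)
    rw [mul_zero] at h1
    have h2 := (tendsto_sq_div hk).const_mul c
    rw [mul_zero] at h2
    refine squeeze_zero_norm' ?_ h1
    filter_upwards [h2.eventually (gt_mem_nhds one_pos), eventually_ge_atTop k] with n h2 hn
    have hn1 : (1 : ℝ) ≤ n := by exact_mod_cast (by omega : 1 ≤ n)
    have hcc : (0 : ℝ) < n.choose k := by exact_mod_cast Nat.choose_pos hn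
    have h3 : (⌊c * n⌋₊ : ℝ) ≤ c * n := Nat.floor_le (by positivity)
    have h4 : ⌊c * n⌋₊ ≤ Fintype.card (PClause k n) := by
      rw [← mul_div_assoc, div_lt_one (by positivity), ← card_cast] at h2
      have : c * n ≤ c * (n : ℝ) ^ 2 := by gcongr; nlinarith
      exact_mod_cast (show (⌊c * n⌋₊ : ℝ) ≤ Fintype.card (PClause k n) by linarith)
    refine (distinct_close k n _ hn h4).trans ?_
    rw [← mul_div_assoc, ← mul_pow]
    gcongr
  constructor
  · intro c hc hcα
    simpa using (key c hc).add (h.2.1 c hc hcα)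
  · intro c hc
    simpa using (key c (by linarith [h.1])).add (h.2.2 c hc)

end Vale.Agent.N170
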